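import Vale.Agent.P144Z.St.KW
import Vale.Agent.P144.H436.PlaneLe
import Vale.Agent.P144.U.Asymp

/-!
The critical plus state: duality with the disorder correlations of the free state, and vanishing
of the spontaneous magnetisation.
-/

namespace Vale.Agent.P144Z.St

open Finset Vale.Agent.P144 Vale.Agent.P144.AL Vale.Agent.P144.H436 Filter Topology

/-- the spin of `x` in the configuration with minus set `S` -/
noncomputable def ms (S : Finset Site) (x : Site) : ℝ := if x ∈ S then -1 else 1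

theorem sp_ext_sdiff {Λ S : Finset Site} (hS : S ⊆ Λ) (x : Site) :
    sp (ext Λ bcp (Λ \ S) x) = ms S x := by
  unfold P144.ext ms bcp
  by_cases h : x ∈ Λ
  · by_cases h' : x ∈ S <;> simp [h, h', sp]
  · have h' : x ∉ S := fun h'' => h (hS h'')
    simp [h, h', sp]

theorem window_fb (M : ℕ) : Window (fb M) (box (M + 3)) := by
  constructor
  · intro x hx
    rw [mem_fb] at hx
    rw [P144.mem_box]
    push_cast
    omega
  · intro u hu v hv
    rw [mem_fb] at hu
    rw [P144.mem_box]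
    unfold dsq at hv
    have h1 : u.1 - v.1 ≤ 2 := by nlinarith [sq_nonneg (u.2 - v.2)]
    have h2 : -2 ≤ u.1 - v.1 := by nlinarith [sq_nonneg (u.2 - v.2)]
    have h3 : u.2 - v.2 ≤ 2 := by nlinarith [sq_nonneg (u.1 - v.1)]
    have h4 : -2 ≤ u.2 - v.2 := by nlinarith [sq_nonneg (u.1 - v.1)]
    push_cast
    omega

theorem ms_mul (S : Finset Site) (x y : Site) :
    ms S x * ms S y = 1 - 2 * (if ¬ (x ∈ S ↔ y ∈ S) then 1 else 0) := by
  unfold ms
  by_cases h : x ∈ S <;> by_cases h' : y ∈ S <;> simp [h, h'] <;> norm_num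

theorem card_bd {M : ℕ} {S : Finset Site} (hS : S ⊆ fb M) :
    (∑ x ∈ hor (box (M + 3)), ms S x * ms S (x.1 + 1, x.2))
      + ∑ x ∈ ver (box (M + 3)), ms S x * ms S (x.1, x.2 + 1)
      = ((hor (box (M + 3))).card + (ver (box (M + 3))).card) - 2 * (bd M S).card := by
  have h0 : (bd M S).card = ((hor (box M)).filter fun y => ¬ (y ∈ S ↔ (y.1, y.2 - 1) ∈ S)).card
      + ((ver (box M)).filter fun y => ¬ (y ∈ S ↔ (y.1 - 1, y.2) ∈ S)).card := by
    unfold bd EE
    rw [card_filter, card_filter, card_filter, sum_disjSum]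
    rfl
  have h1 : ((hor (box (M + 3))).filter fun x => ¬ (x ∈ S ↔ (x.1 + 1, x.2) ∈ S)).card
      = ((ver (box M)).filter fun y => ¬ (y ∈ S ↔ (y.1 - 1, y.2) ∈ S)).card := by
    refine card_nbij' (fun x => (x.1 + 1, x.2)) (fun y => (y.1 - 1, y.2)) (fun x hx => ?_)
      (fun y hy => ?_) (fun x _ => by simp) (fun y _ => by simp)
    · simp only [coe_filter, Set.mem_ofPred_eq, add_sub_cancel_right, Prod.mk.eta] at hx ⊢
      have h : x ∈ S ∨ (x.1 + 1, x.2) ∈ S := by tauto
      refine ⟨?_, by tauto⟩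
      rw [mem_ver, P144.mem_box, P144.mem_box]
      rcases h with h | h <;> have := mem_fb.1 (hS h) <;> simp only at this ⊢ <;> omega
    · simp only [coe_filter, Set.mem_ofPred_eq, sub_add_cancel, Prod.mk.eta] at hy ⊢
      refine ⟨?_, by tauto⟩
      have := hy.1
      rw [mem_ver, P144.mem_box, P144.mem_box] at this
      rw [mem_hor, P144.mem_box, P144.mem_box]
      push_cast
      simp only at this ⊢
      omega
  have h2 : ((ver (box (M + 3))).filter fun x => ¬ (x ∈ S ↔ (x.1, x.2 + 1) ∈ S)).card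
      = ((hor (box M)).filter fun y => ¬ (y ∈ S ↔ (y.1, y.2 - 1) ∈ S)).card := by
    refine card_nbij' (fun x => (x.1, x.2 + 1)) (fun y => (y.1, y.2 - 1)) (fun x hx => ?_)
      (fun y hy => ?_) (fun x _ => by simp) (fun y _ => by simp)
    · simp only [coe_filter, Set.mem_ofPred_eq, add_sub_cancel_right, Prod.mk.eta] at hx ⊢
      have h : x ∈ S ∨ (x.1, x.2 + 1) ∈ S := by tauto
      refine ⟨?_, by tauto⟩
      rw [mem_hor, P144.mem_box, P144.mem_box]
      rcases h with h | h <;> have := mem_fb.1 (hS h) <;> simp only at this ⊢ <;> omega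
    · simp only [coe_filter, Set.mem_ofPred_eq, sub_add_cancel, Prod.mk.eta] at hy ⊢
      refine ⟨?_, by tauto⟩
      have := hy.1
      rw [mem_hor, P144.mem_box, P144.mem_box] at this
      rw [mem_ver, P144.mem_box, P144.mem_box]
      push_cast
      simp only at this ⊢
      omega
  simp only [ms_mul, sum_sub_distrib, sum_const, nsmul_eq_mul, mul_one, ← mul_sum, sum_boole]
  rw [h0, h1, h2]
  push_cast
  ring

theorem exp_two_Kc : Real.exp (-(2 * Kc)) = tc := by
  have h : 2 * Kc = Real.log (1 + √2) := by unfold Kc; ring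
  have h2 := sqrt2_sq
  rw [h, Real.exp_neg, Real.exp_log (by positivity)]
  refine inv_eq_of_mul_eq_one_right ?_
  unfold tc
  linear_combination h2

open Classical in
theorem weight_plus {J : ℝ} (hJ : 0 < J) (M : ℕ) : ∃ C > 0, ∀ S ⊆ fb M,
    Real.exp (-(Kc / J) * energy J 0 (fun _ => 0) (fun A => (A ∩ fb M).Nonempty)
      (ext (fb M) bcp (fb M \ S))) = C * tc ^ (bd M S).card := by
  set W := box (M + 3) with hW
  set c : ℝ := ∑ u ∈ W, ∑ v ∈ W, if u ∈ fb M ∨ v ∈ fb M then 0 else cpl J 0 u v with hc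
  refine ⟨Real.exp (Kc * ((hor W).card + (ver W).card) - Kc / J / 2 * c), Real.exp_pos _,
    fun S hS => ?_⟩
  rw [energy_pairs (Phi_pair0 J) (fun _ h => Phi_supp0 h) (window_fb M)
    (Q := fun _ => True) (fun u v => inter_pair u v)]
  have h1 : ∑ u ∈ W, ∑ v ∈ W, (if (u ∈ fb M ∨ v ∈ fb M) ∧ True ∧ True then
      cpl J 0 u v * (sp (ext (fb M) bcp (fb M \ S) u) * sp (ext (fb M) bcp (fb M \ S) v)) else 0)
      = ∑ u ∈ W, ∑ v ∈ W, cpl J 0 u v * (ms S u * ms S v) - c := by
    rw [hc, ← sum_sub_distrib]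
    refine sum_congr rfl fun u _ => ?_
    rw [← sum_sub_distrib]
    refine sum_congr rfl fun v _ => ?_
    rw [sp_ext_sdiff hS, sp_ext_sdiff hS]
    by_cases h : u ∈ fb M ∨ v ∈ fb M
    · simp [h]
    · have hu : u ∉ S := fun h' => h (Or.inl (hS h'))
      have hv : v ∉ S := fun h' => h (Or.inr (hS h'))
      simp [h, ms, hu, hv]
  suffices h5 : Real.exp (-(Kc / J) * -(1 / 2 *
      (∑ u ∈ W, ∑ v ∈ W, cpl J 0 u v * (ms S u * ms S v) - c)))
      = Real.exp (Kc * ((hor W).card + (ver W).card) - Kc / J / 2 * c) * tc ^ (bd M S).card by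
    rw [← h5, ← h1]
    congr!
  rw [edge_sum, card_bd hS, ← exp_two_Kc, ← Real.exp_nat_mul, ← Real.exp_add]
  congr 1
  field_simp
  ring

/-- Kramers-Wannier duality for two spins. -/
theorem plus_two {J : ℝ} (hJ : 0 < J) (M : ℕ) (x y : Site) :
    gibbs J 0 (fun _ => 0) (Kc / J) (some bcp) (fb M) (fun σ => sp (σ x) * sp (σ y))
      = MM (box M) (x ::ₘ y ::ₘ 0) := by
  obtain ⟨C, hC, h⟩ := weight_plus hJ M
  rw [MM_faces, ← mul_div_mul_left (∑ S ∈ (fb M).powerset, _) _ hC.ne', mul_sum, mul_sum]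
  have e : ∀ g : Finset Site → ℝ, ∑ T ∈ (fb M).powerset, g T
      = ∑ S ∈ (fb M).powerset, g (fb M \ S) := by
    intro g
    refine sum_nbij' (fun T => fb M \ T) (fun T => fb M \ T) (fun T _ => by simp)
      (fun T _ => by simp) (fun T hT => ?_) (fun T hT => ?_) (fun T hT => ?_)
    · exact Finset.sdiff_sdiff_eq_self (mem_powerset.1 hT)
    · exact Finset.sdiff_sdiff_eq_self (mem_powerset.1 hT)
    · rw [Finset.sdiff_sdiff_eq_self (mem_powerset.1 hT)]
  simp only [gibbs, P144.expect]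
  rw [e, e fun T => Real.exp _]
  congr 1
  · refine sum_congr rfl fun S hS => ?_
    rw [h S (mem_powerset.1 hS), sp_ext_sdiff (mem_powerset.1 hS),
      sp_ext_sdiff (mem_powerset.1 hS)]
    simp only [Multiset.map_cons, Multiset.prod_cons, Multiset.map_zero, Multiset.prod_zero, ms]
    ring
  · exact sum_congr rfl fun S hS => h S (mem_powerset.1 hS)

theorem gibbs_V0 (J β : ℝ) (V : Finset Site → ℝ) (b : Option Config) (Λ : Finset Site)
    (F : Config → ℝ) : gibbs J 0 V β b Λ F = gibbs J 0 (fun _ => 0) β b Λ F := by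
  have : ∀ P, energy J 0 V P = energy J 0 (fun _ => 0) P := by
    intro P
    funext σ
    simp only [energy, zero_mul]
  cases b <;> simp only [gibbs, this]

/-- the magnetisation in the plus state -/
noncomputable def mag (J : ℝ) (Λ : Finset Site) (x : Site) : ℝ :=
  gibbs J 0 Vk (Kc / J) (some bcp) Λ fun σ => sp (σ x)

section

variable {J : ℝ} (hJ : 0 < J)

include hJ

theorem mag_anti {D Λ : Finset Site} (hD : D ⊆ Λ) {x : Site} (hx : x ∈ D) :
    mag J Λ x ≤ mag J D x := by
  have := gibbs_le_plus (div_pos kc_pos hJ).le hJ.le le_rfl (some bcp) hD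
    (singleton_subset_iff.2 hx)
  simpa only [prod_singleton, mag] using this

theorem pf_nonneg (Λ W : Finset Site) (u : Site) : 0 ≤ pf (Kc / J) J 0 Λ W u :=
  mul_nonneg (div_pos kc_pos hJ).le (Finset.sum_nonneg fun _ _ => cpl_nonneg hJ.le le_rfl _ _)

theorem mag_mul (Λ : Finset Site) (x y : Site) : mag J Λ x * mag J Λ y
    ≤ gibbs J 0 Vk (Kc / J) (some bcp) Λ fun σ => sp (σ x) * sp (σ y) := by
  unfold mag
  rw [gibbs_plus (window_win Λ), gibbs_plus (window_win Λ), gibbs_plus (window_win Λ)]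
  exact gks2 (KK_nonneg (div_pos kc_pos hJ).le hJ.le le_rfl Λ) (fun i => pf_nonneg hJ _ _ _)
    (gin_exs' x) (gin_exs' y)

theorem mag_nonneg (Λ : Finset Site) (x : Site) : 0 ≤ mag J Λ x := by
  unfold mag
  rw [gibbs_plus (window_win Λ)]
  have h1 := ev_le_abs (K := KK (Kc / J) J 0 Λ) (h := fun _ => 0)
    (h' := fun i => pf (Kc / J) J 0 Λ (win Λ) i)
    (KK_nonneg (div_pos kc_pos hJ).le hJ.le le_rfl Λ)
    (fun i => by rw [abs_zero]; exact pf_nonneg hJ _ _ _) (gin_exs' (Λ := Λ) x)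
  have h2 := cor_nonneg (div_pos kc_pos hJ).le hJ.le (le_refl (0:ℝ)) Λ {x}
  unfold cor at h2
  simp only [prod_singleton] at h2
  exact h2.trans h1

omit hJ in
theorem mag_boxAt (M : ℕ) (x : Site) : mag J (boxAt x M) x = mag J (box M) 0 := by
  have := plus_map (β := Kc / J) (J := J) (lam := 0) (tr x) (dsq_tr x) (box M) 0
  simpa [tr, mag, boxAt] using this

theorem mag_box_anti : Antitone fun M : ℕ => mag J (box M) 0 := fun M M' h =>
  mag_anti hJ (box_mono h) (by rw [H436.mem_box]; simp)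

/-- The spontaneous magnetisation vanishes at the critical point. -/
theorem mag_lim : Tendsto (fun M : ℕ => mag J (box M) 0) atTop (𝓝 0) := by
  have hb : BddBelow (Set.range fun M : ℕ => mag J (box M) 0) :=
    ⟨0, by rintro _ ⟨M, rfl⟩; exact mag_nonneg hJ _ _⟩
  have hlim := tendsto_atTop_ciInf (mag_box_anti hJ) hb
  set m := ⨅ M : ℕ, mag J (box M) 0 with hm
  have hm0 : 0 ≤ m := le_ciInf fun M => mag_nonneg hJ _ _
  have hle : ∀ (M : ℕ) (x : Site), x ∈ fb M → m ≤ mag J (fb M) x := by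
    intro M x hx
    refine (ciInf_le hb (2 * M)).trans ?_
    rw [← mag_boxAt (2 * M) x]
    refine mag_anti hJ (fun y hy => ?_) hx
    rw [mem_fb] at hx hy
    rw [mem_boxAt, abs_le, abs_le]
    push_cast
    omega
  have hD : ∀ k : ℕ, 1 ≤ k → m * m ≤ Dg k := by
    intro k hk
    have h1 : ∀ᶠ M : ℕ in atTop, m * m ≤ MU M 0 k := by
      filter_upwards [eventually_ge_atTop (k + 1)] with M hM
      rw [← MM_box, ← plus_two hJ, ← gibbs_V0 J _ Vk]
      refine le_trans ?_ (mag_mul hJ _ _ _)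
      exact mul_le_mul (hle M _ (by rw [mem_fb]; simp only; omega))
        (hle M _ (by rw [mem_fb]; simp only; omega)) hm0 (mag_nonneg hJ _ _)
    obtain ⟨U, hU⟩ := Ultrafilter.exists_le (atTop : Filter ℕ)
    have h2 : Tendsto (fun M => MU M 0 k) U (𝓝 (ML U 0 k)) := XL_t hU _ _ _ _ _
    have h3 : ML U 0 k = Dg k := by
      have := diff_zero hU 1 hk
      rw [SL_eq hU] at this
      have e : (1:ℤ) - 1 = 0 := by norm_num
      have e' : (1:ℤ) + k - 1 = k := by ring
      rw [e, e'] at this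
      linarith
    rw [← h3]
    exact ge_of_tendsto h2 (hU h1)
  have hDg : Tendsto Dg atTop (𝓝 0) := by
    obtain ⟨A, _, hA⟩ := Dg_asymp
    have h1 : Tendsto (fun n : ℕ => (n:ℝ) ^ (-(1 / 4) : ℝ)) atTop (𝓝 0) :=
      (tendsto_rpow_neg_atTop (by norm_num)).comp tendsto_natCast_atTop_atTop
    have h2 := h1.mul hA
    rw [zero_mul] at h2
    refine h2.congr' ?_
    filter_upwards [eventually_gt_atTop 0] with n hn
    have : (0:ℝ) < n := by exact_mod_cast hn
    rw [← mul_assoc, ← Real.rpow_add this]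
    norm_num
  have h0 : m * m ≤ 0 := ge_of_tendsto hDg (eventually_atTop.2 ⟨1, hD⟩)
  have : m = 0 := by nlinarith
  rwa [this] at hlim

end

end Vale.Agent.P144Z.St
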