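import Vale.Agent.P144.H436.Dis2

/-!
Kramers-Wannier duality in a box: the even subgraphs of `box M` are the boundaries of the sets of
inner faces.
-/

namespace Vale.Agent.P144Z.St

open Finset Vale.Agent.P144 Vale.Agent.P144.AL Vale.Agent.P144.H436

/-- the inner faces of `box M`, named by their lower left corners -/
noncomputable def fb (M : ℕ) : Finset Site :=
  Finset.Icc (-(M : ℤ)) (M - 1) ×ˢ Finset.Icc (-(M : ℤ)) (M - 1)

theorem mem_fb {M : ℕ} {x : Site} :
    x ∈ fb M ↔ (-(M:ℤ) ≤ x.1 ∧ x.1 ≤ M - 1) ∧ (-(M:ℤ) ≤ x.2 ∧ x.2 ≤ M - 1) := by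
  unfold fb; rw [mem_product, mem_Icc, mem_Icc]

/-- the face above (right of) a horizontal (vertical) edge -/
def fP : Site ⊕ Site → Site := Sum.elim id id

/-- the face below (left of) a horizontal (vertical) edge -/
def fQ : Site ⊕ Site → Site := Sum.elim (fun x => (x.1, x.2 - 1)) fun x => (x.1 - 1, x.2)

theorem inl_mem {M : ℕ} {x : Site} : (Sum.inl x : Site ⊕ Site) ∈ EE (box M) ↔
    (-(M:ℤ) ≤ x.1 ∧ x.1 ≤ M - 1) ∧ (-(M:ℤ) ≤ x.2 ∧ x.2 ≤ M) := by
  unfold EE
  rw [inl_mem_disjSum, mem_hor, P144.mem_box, P144.mem_box]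
  simp only
  omega

theorem inr_mem {M : ℕ} {x : Site} : (Sum.inr x : Site ⊕ Site) ∈ EE (box M) ↔
    (-(M:ℤ) ≤ x.1 ∧ x.1 ≤ M) ∧ (-(M:ℤ) ≤ x.2 ∧ x.2 ≤ M - 1) := by
  unfold EE
  rw [inr_mem_disjSum, mem_ver, P144.mem_box, P144.mem_box]
  simp only
  omega

/-- the boundary of a set of faces -/
noncomputable def bd (M : ℕ) (S : Finset Site) : Finset (Site ⊕ Site) :=
  (EE (box M)).filter fun e => ¬ (fP e ∈ S ↔ fQ e ∈ S)

theorem mem_bd {M : ℕ} {S : Finset Site} {e : Site ⊕ Site} :
    e ∈ bd M S ↔ e ∈ EE (box M) ∧ ¬ (fP e ∈ S ↔ fQ e ∈ S) := mem_filter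

theorem bd_sub (M : ℕ) (S : Finset Site) : bd M S ⊆ EE (box M) := filter_subset _ _

theorem bd_symmDiff (M : ℕ) (S S' : Finset Site) :
    bd M (symmDiff S S') = symmDiff (bd M S) (bd M S') := by
  ext e
  simp only [mem_bd, Finset.mem_symmDiff]
  generalize (e ∈ EE (box M)) = p
  generalize (fP e ∈ S) = q
  generalize (fQ e ∈ S) = r
  generalize (fP e ∈ S') = q'
  generalize (fQ e ∈ S') = r'
  by_cases p <;> by_cases q <;> by_cases r <;> by_cases q' <;> by_cases r' <;> simp [*]

theorem bd_single {M : ℕ} {f : Site} (hf : f ∈ fb M) :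
    bd M {f} = {Sum.inl f, Sum.inl (f.1, f.2 + 1), Sum.inr f, Sum.inr (f.1 + 1, f.2)} := by
  rw [mem_fb] at hf
  obtain ⟨a, b⟩ := f
  ext e
  rcases e with ⟨x, y⟩ | ⟨x, y⟩
  · simp only [mem_bd, inl_mem, fP, fQ, Sum.elim_inl, id, mem_singleton, Prod.mk.injEq,
      mem_insert, Sum.inl.injEq, reduceCtorEq, or_false] at hf ⊢
    omega
  · simp only [mem_bd, inr_mem, fP, fQ, Sum.elim_inr, id, mem_singleton, Prod.mk.injEq,
      mem_insert, Sum.inr.injEq, reduceCtorEq, false_or] at hf ⊢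
    omega

theorem prod_single {M : ℕ} {f : Site} (hf : f ∈ fb M) (c : Site ⊕ Site → ℝ) :
    ∏ e ∈ bd M {f}, c e = c (Sum.inl f) * c (Sum.inl (f.1, f.2 + 1)) * c (Sum.inr f)
      * c (Sum.inr (f.1 + 1, f.2)) := by
  obtain ⟨a, b⟩ := f
  rw [bd_single hf, prod_insert (by simp), prod_insert (by simp), prod_insert (by simp),
    prod_singleton]
  ring

/-- products of signs over a boundary -/
theorem prod_bd {M : ℕ} {c : Site ⊕ Site → ℝ} (hc : ∀ e, c e * c e = 1) (S : Finset Site) :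
    ∏ e ∈ bd M S, c e = ∏ f ∈ S, ∏ e ∈ bd M {f}, c e := by
  induction S using Finset.induction_on with
  | empty =>
    have : bd M ∅ = ∅ := by ext e; simp [mem_bd]
    rw [this, prod_empty, prod_empty]
  | insert f S hf ih =>
    have : insert f S = symmDiff {f} S := by
      ext x
      simp only [mem_insert, Finset.mem_symmDiff, mem_singleton]
      constructor
      · rintro (rfl | h)
        · exact Or.inl ⟨rfl, hf⟩
        · exact Or.inr ⟨h, fun h' => hf (h' ▸ h)⟩
      · rintro (⟨h, _⟩ | ⟨h, _⟩)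
        · exact Or.inl h
        · exact Or.inr h
    rw [prod_insert hf, ← ih, this, bd_symmDiff, prod_symmDiff_pm hc]

/-- even subgraphs -/
def IsEv (M : ℕ) (F : Finset (Site ⊕ Site)) : Prop := ∀ T ∈ (box M).powerset, tF eP eQ F T = 1

theorem isEv_bd {M : ℕ} {S : Finset Site} (hS : S ⊆ fb M) : IsEv M (bd M S) := by
  intro T _
  unfold tF
  rw [prod_bd (tau_sq T)]
  refine prod_eq_one fun f hf => ?_
  rw [prod_single (hS hf)]
  simp only [eP, eQ, Sum.elim_inl, Sum.elim_inr, id]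
  have h1 := tv_sq T f
  have h2 := tv_sq T (f.1 + 1, f.2)
  have h3 := tv_sq T (f.1, f.2 + 1)
  have h4 := tv_sq T (f.1 + 1, f.2 + 1)
  calc _ = (tv T f * tv T f) * (tv T (f.1 + 1, f.2) * tv T (f.1 + 1, f.2))
      * (tv T (f.1, f.2 + 1) * tv T (f.1, f.2 + 1))
      * (tv T (f.1 + 1, f.2 + 1) * tv T (f.1 + 1, f.2 + 1)) := by ring
    _ = 1 := by rw [h1, h2, h3, h4]; norm_num

theorem bd_eq_empty {M : ℕ} {S : Finset Site} (hS : S ⊆ fb M) (h : bd M S = ∅) : S = ∅ := by
  by_contra hne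
  obtain ⟨f, hf, hmax⟩ := exists_max_image S (fun x => x.2) (nonempty_iff_ne_empty.2 hne)
  have hfb := mem_fb.1 (hS hf)
  have : (Sum.inl (f.1, f.2 + 1) : Site ⊕ Site) ∈ bd M S := by
    rw [mem_bd, inl_mem]
    refine ⟨by simp only; omega, ?_⟩
    simp only [fP, fQ, Sum.elim_inl, id, add_sub_cancel_right, Prod.mk.eta]
    intro h'
    have := hmax _ (h'.2 hf)
    simp only at this
    omega
  rw [h] at this
  exact notMem_empty _ this

theorem bd_inj {M : ℕ} {S S' : Finset Site} (hS : S ⊆ fb M) (hS' : S' ⊆ fb M)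
    (h : bd M S = bd M S') : S = S' := by
  have h1 : symmDiff S S' ⊆ fb M := by
    intro x hx
    rcases Finset.mem_symmDiff.1 hx with h | h
    · exact hS h.1
    · exact hS' h.1
  have h2 := bd_eq_empty h1 (by rw [bd_symmDiff, h, symmDiff_self]; rfl)
  exact symmDiff_eq_bot.1 h2

/-- the sign of an edge -/
noncomputable def sgF (F : Finset (Site ⊕ Site)) (e : Site ⊕ Site) : ℝ := if e ∈ F then -1 else 1

theorem sgF_pm (F : Finset (Site ⊕ Site)) (e : Site ⊕ Site) : sgF F e = 1 ∨ sgF F e = -1 := by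
  unfold sgF; split_ifs <;> simp

theorem sgF_out {M : ℕ} {F : Finset (Site ⊕ Site)} (hF : F ⊆ EE (box M)) {e : Site ⊕ Site}
    (he : e ∉ EE (box M)) : sgF F e = 1 := if_neg fun h => he (hF h)

/-- the parity condition at a vertex -/
theorem vertex {M : ℕ} {F : Finset (Site ⊕ Site)} (hF : F ⊆ EE (box M)) (hev : IsEv M F)
    (i j : ℤ) : sgF F (Sum.inl (i - 1, j)) * sgF F (Sum.inl (i, j)) * sgF F (Sum.inr (i, j))
      = sgF F (Sum.inr (i, j - 1)) := by
  by_cases hx : ((i, j) : Site) ∈ box M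
  · have h := hev {(i, j)} (mem_powerset.2 (singleton_subset_iff.2 hx))
    let N : Finset (Site ⊕ Site) :=
      {Sum.inl (i - 1, j), Sum.inl (i, j), Sum.inr (i, j), Sum.inr (i, j - 1)}
    have h1 : tF eP eQ F {(i, j)} = ∏ e ∈ F, (if e ∈ N then -1 else 1) := by
      unfold tF
      refine prod_congr rfl fun e _ => ?_
      rcases e with ⟨a, b⟩ | ⟨a, b⟩
      · simp only [eP, eQ, Sum.elim_inl, id, tv, mem_singleton, Prod.mk.injEq, N, mem_insert,
          Sum.inl.injEq, reduceCtorEq, or_false]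
        split_ifs <;> first | (exfalso; omega) | norm_num
      · simp only [eP, eQ, Sum.elim_inr, id, tv, mem_singleton, Prod.mk.injEq, N, mem_insert,
          Sum.inr.injEq, reduceCtorEq, false_or]
        split_ifs <;> first | (exfalso; omega) | norm_num
    have h2 : ∏ e ∈ F, (if e ∈ N then (-1:ℝ) else 1) = ∏ e ∈ N, sgF F e := by
      unfold sgF
      rw [Finset.prod_ite_mem, Finset.prod_ite_mem, inter_comm]
    rw [h1, h2, prod_insert (by simp), prod_insert (by simp), prod_insert (by simp; omega),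
      prod_singleton] at h
    rcases sgF_pm F (Sum.inr (i, j - 1)) with h4 | h4 <;> rw [h4] at h ⊢ <;> linarith
  · rw [P144.mem_box] at hx
    simp only at hx
    rw [sgF_out hF (by rw [inl_mem]; simp only; omega),
      sgF_out hF (by rw [inl_mem]; simp only; omega),
      sgF_out hF (by rw [inr_mem]; simp only; omega),
      sgF_out hF (by rw [inr_mem]; simp only; omega)]
    norm_num

/-- the potential of an even subgraph -/
noncomputable def pot (M : ℕ) (F : Finset (Site ⊕ Site)) (i j : ℤ) : ℝ :=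
  ∏ k ∈ Finset.Ioc j M, sgF F (Sum.inl (i, k))

theorem pot_pm (M : ℕ) (F : Finset (Site ⊕ Site)) (i j : ℤ) :
    pot M F i j = 1 ∨ pot M F i j = -1 := by
  unfold pot
  refine Finset.prod_induction _ (fun x : ℝ => x = 1 ∨ x = -1) (fun _ _ => prod_pm)
    (Or.inl rfl) fun k _ => sgF_pm F _

theorem pot_top {M : ℕ} (F : Finset (Site ⊕ Site)) (i : ℤ) {j : ℤ} (hj : (M:ℤ) ≤ j) :
    pot M F i j = 1 := by
  unfold pot
  rw [Finset.Ioc_eq_empty (by omega), prod_empty]

theorem pot_down {M : ℕ} {F : Finset (Site ⊕ Site)} (hF : F ⊆ EE (box M)) (i j : ℤ) :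
    pot M F i (j - 1) = sgF F (Sum.inl (i, j)) * pot M F i j := by
  by_cases hj : j ≤ M
  · unfold pot
    have : Finset.Ioc (j - 1) (M:ℤ) = insert j (Finset.Ioc j M) := by
      ext k; simp only [mem_Ioc, mem_insert]; omega
    rw [this, prod_insert (by simp)]
  · rw [pot_top F i (by omega), pot_top F i (by omega),
      sgF_out hF (by rw [inl_mem]; simp only; omega), one_mul]

theorem pot_left {M : ℕ} {F : Finset (Site ⊕ Site)} (hF : F ⊆ EE (box M)) (hev : IsEv M F)
    (i j : ℤ) : pot M F (i - 1) j * pot M F i j = sgF F (Sum.inr (i, j)) := by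
  have top : ∀ j : ℤ, (M:ℤ) ≤ j →
      pot M F (i - 1) j * pot M F i j = sgF F (Sum.inr (i, j)) := by
    intro j hj
    rw [pot_top F _ hj, pot_top F _ hj, sgF_out hF (by rw [inr_mem]; simp only; omega), one_mul]
  by_cases hj : (M:ℤ) ≤ j
  · exact top j hj
  · refine Int.leInductionDown (m := M)
      (motive := fun j _ => pot M F (i - 1) j * pot M F i j = sgF F (Sum.inr (i, j)))
      (top _ le_rfl) (fun n _ ih => ?_) j (by omega)
    rw [pot_down hF, pot_down hF, ← vertex hF hev, ← ih]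
    ring

theorem pot_out {M : ℕ} {F : Finset (Site ⊕ Site)} (hF : F ⊆ EE (box M)) (hev : IsEv M F)
    {i j : ℤ} (h : ((i, j) : Site) ∉ fb M) : pot M F i j = 1 := by
  have side : ∀ i j : ℤ, (i < -(M:ℤ) ∨ (M:ℤ) ≤ i) → pot M F i j = 1 := by
    intro i j hi
    exact prod_eq_one fun k _ => sgF_out hF (by rw [inl_mem]; simp only; omega)
  rw [mem_fb] at h
  simp only at h
  by_cases h1 : i < -(M:ℤ) ∨ (M:ℤ) ≤ i
  · exact side i j h1
  by_cases h2 : (M:ℤ) ≤ j
  · exact pot_top F i h2
  refine Int.leInductionDown (m := M) (motive := fun i _ => pot M F i j = 1)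
    (side _ _ (Or.inr le_rfl)) (fun n _ ih => ?_) i (by omega)
  have := pot_left hF hev n j
  rwa [ih, mul_one, sgF_out hF (by rw [inr_mem]; simp only; omega)] at this

theorem bd_surj {M : ℕ} {F : Finset (Site ⊕ Site)} (hF : F ⊆ EE (box M)) (hev : IsEv M F) :
    ∃ S ⊆ fb M, bd M S = F := by
  classical
  refine ⟨(fb M).filter fun f => pot M F f.1 f.2 = -1, filter_subset _ _, ?_⟩
  have hm : ∀ i j : ℤ, ((i, j) : Site) ∈ (fb M).filter (fun f => pot M F f.1 f.2 = -1)
      ↔ pot M F i j = -1 := by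
    intro i j
    rw [mem_filter]
    refine ⟨fun h => h.2, fun h => ⟨?_, h⟩⟩
    by_contra h'
    rw [pot_out hF hev h'] at h
    norm_num at h
  ext e
  rw [mem_bd]
  have key : ∀ (x y s : ℝ), (x = 1 ∨ x = -1) → (y = 1 ∨ y = -1) → x * y = sgF F e →
      (¬ (x = -1 ↔ y = -1) ↔ e ∈ F) := by
    intro x y _ hx hy h
    unfold sgF at h
    by_cases he : e ∈ F
    · rw [if_pos he] at h
      rcases hx with rfl | rfl <;> rcases hy with rfl | rfl <;>
        first | (exfalso; linarith) | norm_num [he]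
    · rw [if_neg he] at h
      rcases hx with rfl | rfl <;> rcases hy with rfl | rfl <;>
        first | (exfalso; linarith) | norm_num [he]
  have key2 : (¬ (fP e ∈ (fb M).filter (fun f => pot M F f.1 f.2 = -1) ↔
      fQ e ∈ (fb M).filter (fun f => pot M F f.1 f.2 = -1))) ↔ e ∈ F := by
    rcases e with ⟨a, b⟩ | ⟨a, b⟩
    · simp only [fP, fQ, Sum.elim_inl, id, hm]
      refine key _ _ 0 (pot_pm M F _ _) (pot_pm M F _ _) ?_
      rw [pot_down hF]
      rcases pot_pm M F a b with h | h <;> rw [h] <;> ring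
    · simp only [fP, fQ, Sum.elim_inr, id, hm]
      refine key _ _ 0 (pot_pm M F _ _) (pot_pm M F _ _) ?_
      rw [mul_comm, pot_left hF hev]
  rw [key2]
  exact ⟨fun h => h.2, fun h => ⟨hF h, h⟩⟩

/-- The high-temperature expansion in a box as a sum over sets of faces. -/
theorem Zf_box (M : ℕ) (u : Site ⊕ Site → ℝ) :
    Zf (box M) eP eQ (EE (box M)) 0 u
      = 2 ^ (box M).card * ∑ S ∈ (fb M).powerset, ∏ e ∈ bd M S, u e := by
  classical
  rw [Zf_expand]
  have h1 : ∀ F ∈ (EE (box M)).powerset, (∏ e ∈ F, u e) * gF (box M) eP eQ 0 F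
      = if IsEv M F then 2 ^ (box M).card * ∏ e ∈ F, u e else 0 := by
    intro F hF
    have hg : gF (box M) eP eQ 0 F = ∑ T ∈ (box M).powerset, tF eP eQ F T := by
      unfold gF spn
      simp
    rw [hg]
    split_ifs with h
    · rw [sum_congr rfl h, sum_const, card_powerset, nsmul_eq_mul, mul_one, mul_comm]
      push_cast
      rfl
    · rcases (isChar_tF (Λ := box M) EE_ends (mem_powerset.1 hF)).dich with h' | h'
      · rw [h', mul_zero]
      · exact absurd h' h
  rw [sum_congr rfl h1, ← sum_filter, ← mul_sum]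
  congr 1
  symm
  refine sum_bij (fun S _ => bd M S) (fun S hS => ?_) (fun S hS S' hS' h => ?_)
    (fun F hF => ?_) (fun S _ => rfl)
  · exact mem_filter.2 ⟨mem_powerset.2 (bd_sub M S), isEv_bd (mem_powerset.1 hS)⟩
  · exact bd_inj (mem_powerset.1 hS) (mem_powerset.1 hS') h
  · obtain ⟨S, hS, h⟩ := bd_surj (mem_powerset.1 (mem_filter.1 hF).1) (mem_filter.1 hF).2
    exact ⟨S, mem_powerset.2 hS, h⟩

/-- The sign of a cut on a boundary is the dual spin. -/
theorem prod_cut {M : ℕ} {S : Finset Site} (hS : S ⊆ fb M) (R : Multiset Site) :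
    ∏ e ∈ bd M S, Sum.elim (cutS R) (1 : Site → ℝ) e
      = (R.map fun r => if r ∈ S then (-1:ℝ) else 1).prod := by
  induction R using Multiset.induction_on with
  | empty =>
    refine prod_eq_one fun e _ => ?_
    rcases e with x | x
    · simp [cutS]
    · simp
  | cons r R ih =>
    have h1 : ∀ e, Sum.elim (cutS (r ::ₘ R)) (1 : Site → ℝ) e
        = Sum.elim (cut1 r) (1 : Site → ℝ) e * Sum.elim (cutS R) (1 : Site → ℝ) e := by
      intro e
      rcases e with x | x
      · simp [cutS]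
      · simp
    have h2 : ∀ e, Sum.elim (cut1 r) (1 : Site → ℝ) e * Sum.elim (cut1 r) (1 : Site → ℝ) e
        = 1 := by
      intro e
      rcases e with x | x
      · exact cut1_sq r x
      · simp
    simp only [h1, prod_mul_distrib, ih, Multiset.map_cons, Multiset.prod_cons]
    congr 1
    rw [prod_bd h2]
    have h3 : ∀ f ∈ S, ∏ e ∈ bd M {f}, Sum.elim (cut1 r) (1 : Site → ℝ) e
        = if f = r then -1 else 1 := by
      intro f hf
      rw [prod_single (hS hf)]
      obtain ⟨a, b⟩ := f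
      obtain ⟨c, d⟩ := r
      simp only [Sum.elim_inl, Sum.elim_inr, Pi.one_apply, cut1, Prod.mk.injEq, mul_one]
      split_ifs <;> first | (exfalso; omega) | norm_num
    rw [prod_congr rfl h3, Finset.prod_ite_eq']

/-- Disorder correlations in a free box are sums over sets of faces. -/
theorem MM_faces (M : ℕ) (R : Multiset Site) :
    MM (box M) R = (∑ S ∈ (fb M).powerset,
      (R.map fun r => if r ∈ S then (-1:ℝ) else 1).prod * tc ^ (bd M S).card)
        / ∑ S ∈ (fb M).powerset, tc ^ (bd M S).card := by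
  rw [MM_eq, Mz, Zf_box, Zf_box, mul_div_mul_left _ _ (by positivity)]
  congr 1
  · refine sum_congr rfl fun S hS => ?_
    rw [prod_mul_distrib, prod_cut (mem_powerset.1 hS), prod_const, mul_comm]
  · simp only [prod_const]

end Vale.Agent.P144Z.St
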