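import Vale.Agent.P144Z.St.Plus
import Vale.Agent.P144.H436.Plane
import Vale.Agent.P144.H436.Two

/-!
Uniqueness of the Gibbs state of the critical nearest-neighbour model.
-/

namespace Vale.Agent.P144Z.St

open Finset Vale.Agent.P144 Vale.Agent.P144.H436 Filter Topology MeasureTheory

section ev

variable {ι : Type*} [Fintype ι] [DecidableEq ι]

theorem ev_flip (K : ι → ι → ℝ) (h : ι → ℝ) (i : ι) :
    ev K (fun j => -h j) (sg i) = -ev K h (sg i) := by
  let e : (ι → Bool) ≃ (ι → Bool) :=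
    ⟨fun s i => !(s i), fun s i => !(s i), fun s => by simp, fun s => by simp⟩
  have hw : ∀ s, wt K (fun j => -h j) s = wt K h (e s) := by
    intro s
    unfold wt ex
    simp only [e, Equiv.coe_fn_mk, sp_not, mul_neg, neg_mul, neg_neg]
  unfold ev
  rw [← neg_div, ← Finset.sum_neg_distrib]
  congr 1
  · refine Finset.sum_equiv e (by simp) fun s _ => ?_
    rw [hw]
    simp only [sg, e, Equiv.coe_fn_mk, sp_not, neg_mul, neg_neg]
  · exact Finset.sum_equiv e (by simp) fun s _ => hw s

/-- The expectation of a bounded observable of the spins of `B` depends on the field at most as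
much as the magnetisation of `B`. -/
theorem ev_sub_le {K : ι → ι → ℝ} (hK : ∀ i j, 0 ≤ K i j) {h h' : ι → ℝ} (hh : ∀ i, |h i| ≤ h' i)
    (B : Finset ι) {f : (ι → Bool) → ℝ} (hf : ∀ s, |f s| ≤ 1)
    (hB : ∀ s t, (∀ i ∈ B, s i = t i) → f s = f t) :
    |ev K h f - ev K h' f| ≤ 2 * ∑ i ∈ B, ev K h' (sg i) := by
  have mono : ∀ g : (ι → Bool) → ℝ, (∀ s, |g s| ≤ 1) → (∀ s t, (∀ i ∈ B, s i = t i) → g s = g t) →
      Monotone fun s => g s + ∑ i ∈ B, sg i s := by
    intro g hg hgB s t hst
    have h1 : ∀ i, sg i s ≤ sg i t := fun i => sg_mono i hst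
    by_cases he : ∀ i ∈ B, s i = t i
    · simp only [hgB s t he]
      exact add_le_add le_rfl (Finset.sum_le_sum fun i _ => h1 i)
    · push Not at he
      obtain ⟨i, hi, hne⟩ := he
      have h2 : sg i s + 2 ≤ sg i t := by
        have := hst i
        unfold sg
        cases hs : s i <;> cases ht : t i
        · exact absurd (hs.trans ht.symm) hne
        · rw [sp_true, sp_false]; norm_num
        · rw [hs, ht] at this; exact absurd (show true ≤ false from this) (by decide)
        · exact absurd (hs.trans ht.symm) hne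
      have h3 : ∑ j ∈ B.erase i, sg j s ≤ ∑ j ∈ B.erase i, sg j t :=
        Finset.sum_le_sum fun j _ => h1 j
      have h4 := abs_le.1 (hg s)
      have h5 := abs_le.1 (hg t)
      simp only
      rw [← Finset.add_sum_erase _ _ hi, ← Finset.add_sum_erase _ _ hi]
      linarith
  have hle : ∀ i, h i ≤ h' i := fun i => (le_abs_self _).trans (hh i)
  have a1 := ev_mono_field hK (mono f hf hB) hle
  have a2 := ev_mono_field hK (mono (fun s => -1 * f s) (fun s => by simpa using hf s)
    (fun s t h => by rw [hB s t h])) hle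
  simp only [ev_add, ev_sum, ev_const_mul] at a1 a2
  have a3 : -∑ i ∈ B, ev K h' (sg i) ≤ ∑ i ∈ B, ev K h (sg i) := by
    rw [← Finset.sum_neg_distrib]
    refine Finset.sum_le_sum fun i _ => ?_
    rw [← ev_flip]
    exact ev_mono_field hK (sg_mono i) fun j => (abs_le.1 (hh j)).1
  rw [abs_le]
  constructor <;> linarith

end ev

theorem continuous_of_local {W : Finset Site} {F : Config → ℝ} (hF : Local W F) :
    Continuous F := by
  have : F = (fun s : W → Bool => F (exs W bcp s)) ∘ fun (σ : Config) (i : W) => σ i := by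
    funext σ
    exact hF _ _ fun x hx => by rw [exs_mem hx]
  rw [this]
  exact continuous_of_discreteTopology.comp (continuous_pi fun i => continuous_apply _)

theorem continuous_gibbs (J β : ℝ) (V : Finset Site → ℝ) (Λ A : Finset Site) :
    Continuous fun η => gibbs J 0 V β (some η) Λ fun σ => ∏ x ∈ A, sp (σ x) := by
  refine continuous_of_local (W := win Λ ∪ A) fun η η' h => ?_
  rw [gibbs_V0, gibbs_V0 J β V, gibbs_zero J β (window_win Λ), gibbs_zero J β (window_win Λ)]
  congr 1
  · funext i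
    unfold fld
    congr 1
    exact Finset.sum_congr rfl fun v hv => by rw [h v (mem_union_left _ hv)]
  · funext s
    refine Finset.prod_congr rfl fun x hx => ?_
    by_cases hxΛ : x ∈ Λ
    · rw [exs_mem hxΛ, exs_mem hxΛ]
    · rw [exs_not_mem hxΛ, exs_not_mem hxΛ, h x (mem_union_right _ hx)]

variable {J : ℝ} (hJ : 0 < J)

include hJ

/-- Dependence on the boundary condition. -/
theorem bc_le (b : Option Config) {Λ A : Finset Site} (hA : A ⊆ Λ) :
    |gibbs J 0 Vk (Kc / J) b Λ (spA A) - gibbs J 0 Vk (Kc / J) (some bcp) Λ (spA A)|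
      ≤ 2 * ∑ x ∈ A, mag J Λ x := by
  have hβ : 0 ≤ Kc / J := (div_pos kc_pos hJ).le
  have hW := window_win Λ
  have hK := KK_nonneg hβ hJ.le le_rfl Λ
  have e : ∀ η : Config, (fun s : Λ → Bool => spA A (exs Λ η s))
      = fun s => spA A (exs Λ bcp s) := by
    intro η
    funext s
    refine Finset.prod_congr rfl fun x hx => ?_
    rw [exs_mem (hA hx), exs_mem (hA hx)]
  have key : ∀ h : Λ → ℝ, (∀ i, |h i| ≤ pf (Kc / J) J 0 Λ (win Λ) i) →
      |ev (KK (Kc / J) J 0 Λ) h (fun s => spA A (exs Λ bcp s))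
        - gibbs J 0 Vk (Kc / J) (some bcp) Λ (spA A)| ≤ 2 * ∑ x ∈ A, mag J Λ x := by
    intro h hh
    rw [gibbs_plus hW]
    refine (ev_sub_le hK hh (A.subtype (· ∈ Λ)) (fun s => (abs_spA _ _).le) fun s t hst => ?_).trans
      (le_of_eq ?_)
    · refine Finset.prod_congr rfl fun x hx => ?_
      rw [exs_mem (hA hx), exs_mem (hA hx), hst _ (mem_subtype.2 hx)]
    · congr 1
      rw [← Finset.sum_subtype_of_mem (mag J Λ) hA]
      refine Finset.sum_congr rfl fun i _ => ?_
      unfold mag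
      rw [gibbs_plus hW]
      congr 1
      funext s
      rw [exs_mem i.2]
      rfl
  cases b with
  | none =>
    rw [gibbs_freeK, e]
    exact key _ fun i => by rw [abs_zero]; exact pf_nonneg hJ _ _ _
  | some η =>
    rw [gibbs_knight J 0 _ hW η, e]
    refine key _ fun i => ?_
    rw [← fld_bcp, abs_mul, abs_of_nonneg hβ]
    refine mul_le_mul_of_nonneg_left ?_ hβ
    unfold fld
    refine (Finset.abs_sum_le_sum_abs _ _).trans (Finset.sum_le_sum fun v _ => ?_)
    split_ifs
    · rw [abs_mul, abs_sp, abs_of_nonneg (cpl_nonneg hJ.le le_rfl _ _), bcp, sp_true]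
    · simp

/-- Uniform convergence of all finite-volume correlations. -/
theorem unif (A : Finset Site) {ε : ℝ} (hε : 0 < ε) : ∃ M : ℕ, ∀ Λ, box M ⊆ Λ →
    ∀ (V : Finset Site → ℝ) (b : Option Config),
      |gibbs J 0 V (Kc / J) b Λ (spA A) - cl (Kc / J) J A| ≤ ε := by
  have hβ : 0 ≤ Kc / J := (div_pos kc_pos hJ).le
  obtain ⟨R, hR⟩ := (subset_box A).exists
  have h1 : Tendsto (fun N : ℕ => 4 * (A.card * mag J (box N) 0)) atTop (𝓝 0) := by
    simpa using ((mag_lim hJ).const_mul (A.card : ℝ)).const_mul 4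
  obtain ⟨N, hN⟩ := (h1.eventually (gt_mem_nhds (half_pos hε))).exists
  obtain ⟨N', hN'⟩ := eventually_atTop.1
    ((cl_tendsto hβ hJ.le A).eventually (lt_mem_nhds (sub_lt_self _ (half_pos hε))))
  refine ⟨N + R + N', fun Λ hΛ V b => ?_⟩
  have hA : A ⊆ box (N + R + N') := hR.trans (box_mono (by omega))
  have hm : ∑ x ∈ A, mag J Λ x ≤ A.card * mag J (box N) 0 := by
    rw [← nsmul_eq_mul]
    refine Finset.sum_le_card_nsmul _ _ _ fun x hx => ?_
    rw [← mag_boxAt N x]
    have hx' := H436.mem_box.1 (hR hx)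
    refine mag_anti hJ (fun y hy => hΛ ?_) (by rw [mem_boxAt]; simp)
    rw [mem_boxAt, abs_le, abs_le] at hy
    rw [abs_le, abs_le] at hx'
    rw [H436.mem_box, abs_le, abs_le]
    push_cast
    omega
  have a1 := abs_le.1 (bc_le hJ b (hA.trans hΛ))
  have a2 := abs_le.1 (bc_le hJ none (hA.trans hΛ))
  have a3 : gibbs J 0 Vk (Kc / J) none Λ (spA A) = cor (Kc / J) J 0 Λ A := gibbs_freeK _ _ _ _ _
  have a4 := cor_le_cl hβ hJ.le (hA.trans hΛ)
  have a5 := cor_mono hβ hJ.le le_rfl hΛ hA
  have a6 := hN' (N + R + N') (by omega)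
  rw [gibbs_V0, ← gibbs_V0 J _ Vk, abs_le]
  constructor <;> linarith

/-- Every plane state of the critical nearest-neighbour model has the correlations `cl`. -/
theorem plane_cl {V : Finset Site → ℝ} {μ : Measure Config} (hμ : IsPlaneState J 0 V (Kc / J) μ)
    (A : Finset Site) : ∫ σ, spA A σ ∂μ = cl (Kc / J) J A := by
  obtain ⟨_, _, Λ, b, hΛ, hlim⟩ := hμ
  refine tendsto_nhds_unique (hlim A) (Metric.tendsto_atTop.2 fun ε hε => ?_)
  obtain ⟨M, hM⟩ := unif hJ A (half_pos hε)
  obtain ⟨k₀, hk⟩ := eventually_atTop.1 ((eventually_all_finset (box M)).2 fun x _ => hΛ x)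
  refine ⟨k₀, fun k hk' => ?_⟩
  rw [Real.dist_eq]
  exact (hM (Λ k) (fun x hx => hk k hk' x hx) V (b k)).trans_lt (half_lt_self hε)

/-- Every solution of the DLR equations has the correlations `cl`. -/
theorem dlr_cl {V : Finset Site → ℝ} {μ : Measure Config} [IsProbabilityMeasure μ]
    (hμ : ∀ Λ A : Finset Site,
      ∫ η, gibbs J 0 V (Kc / J) (some η) Λ (fun σ => ∏ x ∈ A, sp (σ x)) ∂μ
        = ∫ σ, ∏ x ∈ A, sp (σ x) ∂μ)
    (A : Finset Site) : ∫ σ, spA A σ ∂μ = cl (Kc / J) J A := by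
  refine eq_of_forall_dist_le fun ε hε => ?_
  obtain ⟨M, hM⟩ := unif hJ A hε
  have h := hM _ subset_rfl V
  change dist (∫ σ, ∏ x ∈ A, sp (σ x) ∂μ) _ ≤ ε
  rw [← hμ (box M) A, Real.dist_eq]
  have hi : Integrable
      (fun η => gibbs J 0 V (Kc / J) (some η) (box M) (fun σ => ∏ x ∈ A, sp (σ x))) μ :=
    (continuous_gibbs J _ V _ A).integrable_of_hasCompactSupport (HasCompactSupport.of_compactSpace _)
  have : ∫ η, (gibbs J 0 V (Kc / J) (some η) (box M) (fun σ => ∏ x ∈ A, sp (σ x))
      - cl (Kc / J) J A) ∂μ = ∫ η, gibbs J 0 V (Kc / J) (some η) (box M)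
        (fun σ => ∏ x ∈ A, sp (σ x)) ∂μ - cl (Kc / J) J A := by
    rw [integral_sub hi (integrable_const _)]
    simp
  rw [← this]
  have := norm_integral_le_of_norm_le_const (μ := μ) (C := ε)
    (f := fun η => gibbs J 0 V (Kc / J) (some η) (box M) (fun σ => ∏ x ∈ A, sp (σ x))
      - cl (Kc / J) J A) (Eventually.of_forall fun η => h (some η))
  simpa using this

/-- A plane state and a solution of the DLR equations coincide. -/
theorem plane_eq_dlr {V V' : Finset Site → ℝ} {μ ν : Measure Config}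
    (hμ : IsPlaneState J 0 V (Kc / J) μ) [IsProbabilityMeasure ν]
    (hν : ∀ Λ A : Finset Site,
      ∫ η, gibbs J 0 V' (Kc / J) (some η) Λ (fun σ => ∏ x ∈ A, sp (σ x)) ∂ν
        = ∫ σ, ∏ x ∈ A, sp (σ x) ∂ν) : μ = ν := by
  have := hμ.1
  exact measure_ext fun A => by rw [plane_cl hJ hμ, dlr_cl hJ hν]

end Vale.Agent.P144Z.St
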